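import Vale.Agent.P141.Cfg
import Vale.Agent.P141.Edge

namespace Vale.Agent.Results.P141.UnboundedRegion

open Vale.Agent.P141
open scoped ENNReal

lemma nonempty_smp (d : List (ℤ × ℤ × ℕ)) (hd : 0 < total d) : Nonempty (Smp d) :=
  Fintype.card_pos_iff.1 (by rw [card_smp]; exact hd)

theorem total_balanced : 0 < total balancedData := by decide +kernel

theorem cert_balanced :
    lprod balancedData Prod.fst ^ 2
        < total balancedData ^ total balancedData * lprod balancedData id ∧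
    ∀ i ∈ [1, 2, 3], lprod balancedData Prod.fst ^ 167
        * total balancedData ^ (79 * total balancedData) * lprod balancedData id ^ 79
      ≤ lprod balancedData (proj i) ^ 167 * lprod balancedData Prod.fst ^ (2 * 79) := by
  decide +kernel

/-- The configuration for the pair of projections `(1,2)`. -/
def data12 : List (ℤ × ℤ × ℕ) := productData 1 1 2 1 [1, 3, 7, 12, 14, 12, 7, 3, 1]
/-- The configuration for the pair of projections `(1,3)`. -/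
def data13 : List (ℤ × ℤ × ℕ) := productData 1 2 1 1 [1, 5, 14, 19, 14, 5, 1]
/-- The configuration for the pair of projections `(2,3)`. -/
def data23 : List (ℤ × ℤ × ℕ) := productData 2 1 1 2 [1, 3, 7, 12, 14, 12, 7, 3, 1]

theorem cert12 : 0 < total data12 ∧
    lprod data12 Prod.fst ^ 2 < total data12 ^ total data12 * lprod data12 id ∧
    lprod data12 (proj 1) = lprod data12 (proj 2) ∧
    total data12 ^ total data12 * lprod data12 id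
      = lprod data12 (proj 1) * lprod data12 (proj 2) ∧
    lprod data12 Prod.fst ^ 4 * lprod data12 (proj 1) ^ 3
      ≤ lprod data12 (proj 3) ^ 4 * lprod data12 Prod.fst ^ 3 := by
  decide +kernel

theorem cert13 : 0 < total data13 ∧
    lprod data13 Prod.fst ^ 2 < total data13 ^ total data13 * lprod data13 id ∧
    lprod data13 (proj 1) = lprod data13 (proj 3) ∧
    total data13 ^ total data13 * lprod data13 id
      = lprod data13 (proj 1) * lprod data13 (proj 3) ∧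
    lprod data13 Prod.fst ^ 23 * lprod data13 (proj 1) ^ 16
      ≤ lprod data13 (proj 2) ^ 23 * lprod data13 Prod.fst ^ 16 := by
  decide +kernel

theorem cert23 : 0 < total data23 ∧
    lprod data23 Prod.fst ^ 2 < total data23 ^ total data23 * lprod data23 id ∧
    lprod data23 (proj 2) = lprod data23 (proj 3) ∧
    total data23 ^ total data23 * lprod data23 id
      = lprod data23 (proj 2) * lprod data23 (proj 3) ∧
    lprod data23 Prod.fst ^ 9 * lprod data23 (proj 2) ^ 7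
      ≤ lprod data23 (proj 1) ^ 9 * lprod data23 Prod.fst ^ 7 := by
  decide +kernel

lemma region {p₁ p₂ p₃ : ℝ≥0∞} {r : ℝ} (hr : 0 < r)
    (hp : (ENNReal.ofReal r)⁻¹ = p₁⁻¹ + p₂⁻¹ + p₃⁻¹)
    (hreg : r < 473 / 1000 ∨
      2 < (p₁⁻¹).toReal + (p₂⁻¹).toReal + 3 / 4 * (p₃⁻¹).toReal ∨
      2 < (p₁⁻¹).toReal + 16 / 23 * (p₂⁻¹).toReal + (p₃⁻¹).toReal ∨
      2 < 7 / 9 * (p₁⁻¹).toReal + (p₂⁻¹).toReal + (p₃⁻¹).toReal) :
    ¬ BoundedAt p₁ p₂ p₃ (ENNReal.ofReal r) := by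
  have hfin : p₁⁻¹ + p₂⁻¹ + p₃⁻¹ ≠ ⊤ := by
    rw [← hp, Ne, ENNReal.inv_eq_top, ENNReal.ofReal_eq_zero, not_le]; exact hr
  have hsum : (p₁⁻¹).toReal + (p₂⁻¹).toReal + (p₃⁻¹).toReal = 1 / r := by
    obtain ⟨h12, h3⟩ := ENNReal.add_ne_top.1 hfin
    obtain ⟨h1, h2⟩ := ENNReal.add_ne_top.1 h12
    rw [← ENNReal.toReal_add h1 h2, ← ENNReal.toReal_add h12 h3, ← hp, ENNReal.toReal_inv,
      ENNReal.toReal_ofReal hr.le, one_div]
  set s₁ := (p₁⁻¹).toReal with hs1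
  set s₂ := (p₂⁻¹).toReal with hs2
  set s₃ := (p₃⁻¹).toReal with hs3
  have n1 : 0 ≤ s₁ := ENNReal.toReal_nonneg
  have n2 : 0 ≤ s₂ := ENNReal.toReal_nonneg
  have n3 : 0 ≤ s₃ := ENNReal.toReal_nonneg
  rcases hreg with h | h | h | h
  · haveI := nonempty_smp _ total_balanced
    obtain ⟨h0, hc⟩ := cert_balanced
    obtain ⟨hD, k1⟩ := slack_of_cert _ total_balanced 79 167 h0 1 (hc 1 (by simp))
    obtain ⟨-, k2⟩ := slack_of_cert _ total_balanced 79 167 h0 2 (hc 2 (by simp))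
    obtain ⟨-, k3⟩ := slack_of_cert _ total_balanced 79 167 h0 3 (hc 3 (by simp))
    push_cast at k1 k2 k3
    refine not_boundedAt_of_config (cfg balancedData) (by linarith) p₁ p₂ p₃ r hr hp ?_
    set D := 2 * ent (Prod.fst ∘ cfg balancedData) - ent (cfg balancedData)
    have hS : 167 / 79 < 1 / r := by
      rw [div_lt_div_iff₀ (by norm_num) hr]
      linarith
    have e1 := mul_le_mul_of_nonneg_left k1 n1
    have e2 := mul_le_mul_of_nonneg_left k2 n2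
    have e3 := mul_le_mul_of_nonneg_left k3 n3
    rw [← hsum] at hS
    have e4 := mul_lt_mul_of_pos_right hS hD
    linarith
  · obtain ⟨hd, c1, c2, c3, c4⟩ := cert12
    haveI := nonempty_smp _ hd
    obtain ⟨δ, hδ, e1, e2, e3, e4⟩ := product_cert _ hd 3 4 c1 1 2 3 c2 c3 c4
    push_cast at e4
    refine not_boundedAt_of_config (cfg data12) (by linarith) p₁ p₂ p₃ r hr hp ?_
    rw [← hs1, ← hs2, ← hs3, e1, e2, e3]
    have a4 := mul_le_mul_of_nonneg_left e4 n3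
    have a5 := mul_lt_mul_of_pos_right h hδ
    linarith
  · obtain ⟨hd, c1, c2, c3, c4⟩ := cert13
    haveI := nonempty_smp _ hd
    obtain ⟨δ, hδ, e1, e2, e3, e4⟩ := product_cert _ hd 16 23 c1 1 3 2 c2 c3 c4
    push_cast at e4
    refine not_boundedAt_of_config (cfg data13) (by linarith) p₁ p₂ p₃ r hr hp ?_
    rw [← hs1, ← hs2, ← hs3, e1, e2, e3]
    have a4 := mul_le_mul_of_nonneg_left e4 n2
    have a5 := mul_lt_mul_of_pos_right h hδ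
    linarith
  · obtain ⟨hd, c1, c2, c3, c4⟩ := cert23
    haveI := nonempty_smp _ hd
    obtain ⟨δ, hδ, e1, e2, e3, e4⟩ := product_cert _ hd 7 9 c1 2 3 1 c2 c3 c4
    push_cast at e4
    refine not_boundedAt_of_config (cfg data23) (by linarith) p₁ p₂ p₃ r hr hp ?_
    rw [← hs1, ← hs2, ← hs3, e1, e2, e3]
    have a4 := mul_le_mul_of_nonneg_left e4 n1
    have a5 := mul_lt_mul_of_pos_right h hδ
    linarith

theorem result :
    (∀ (p₁ p₂ p₃ : ℝ≥0∞) (r : ℝ), 0 < r →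
      (ENNReal.ofReal r)⁻¹ = p₁⁻¹ + p₂⁻¹ + p₃⁻¹ →
      (r < 473 / 1000 ∨
        2 < (p₁⁻¹).toReal + (p₂⁻¹).toReal + 3 / 4 * (p₃⁻¹).toReal ∨
        2 < (p₁⁻¹).toReal + 16 / 23 * (p₂⁻¹).toReal + (p₃⁻¹).toReal ∨
        2 < 7 / 9 * (p₁⁻¹).toReal + (p₂⁻¹).toReal + (p₃⁻¹).toReal) →
      ¬ BoundedAt p₁ p₂ p₃ (ENNReal.ofReal r)) ∧
    (∀ r : ℝ, 1 / 3 < r → r < 1 / 2 → ∃ p₁ p₂ p₃ : ℝ≥0∞, 1 < p₁ ∧ 1 < p₂ ∧ 1 < p₃ ∧
      (ENNReal.ofReal r)⁻¹ = p₁⁻¹ + p₂⁻¹ + p₃⁻¹ ∧ ¬ BoundedAt p₁ p₂ p₃ (ENNReal.ofReal r)) ∧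
    (∀ (L : ℕ) (p₁ p₂ p₃ : ℝ≥0∞) (r : ℝ), 0 < L → 0 < r →
      (ENNReal.ofReal r)⁻¹ = p₁⁻¹ + p₂⁻¹ + p₃⁻¹ →
      (Real.log (3 * L) < (p₁⁻¹).toReal * Real.log (3 * L / (L + 2))
          + (p₂⁻¹).toReal * Real.log (3 * L / (L + 4)) + (p₃⁻¹).toReal * Real.log L ∨
        Real.log (2 * L) < ((p₁⁻¹).toReal + (p₃⁻¹).toReal) * Real.log (2 * L / (L + 1))
          + (p₂⁻¹).toReal * Real.log L) →
      ¬ BoundedAt p₁ p₂ p₃ (ENNReal.ofReal r)) ∧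
    (∀ p₁ p₂ : ℝ≥0∞, 1 < (p₁⁻¹).toReal + (p₂⁻¹).toReal → ∃ δ : ℝ, 0 < δ ∧
      ∀ (p₃ : ℝ≥0∞) (r : ℝ), 0 < r → (ENNReal.ofReal r)⁻¹ = p₁⁻¹ + p₂⁻¹ + p₃⁻¹ →
        1 - δ < (p₃⁻¹).toReal → ¬ BoundedAt p₁ p₂ p₃ (ENNReal.ofReal r)) ∧
    (∀ p₁ p₃ : ℝ≥0∞, 1 < (p₁⁻¹).toReal + (p₃⁻¹).toReal → ∃ δ : ℝ, 0 < δ ∧
      ∀ (p₂ : ℝ≥0∞) (r : ℝ), 0 < r → (ENNReal.ofReal r)⁻¹ = p₁⁻¹ + p₂⁻¹ + p₃⁻¹ →
        1 - δ < (p₂⁻¹).toReal → ¬ BoundedAt p₁ p₂ p₃ (ENNReal.ofReal r)) := by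
  refine ⟨fun p₁ p₂ p₃ r hr hp h => region hr hp h, fun r h3 h2 => ?_, ?_, ?_, ?_⟩
  rotate_left
  · rintro L p₁ p₂ p₃ r hL hr hp (h | h)
    · exact not_boundedAt_face3 L hL p₁ p₂ p₃ r hr hp h
    · exact not_boundedAt_face2 L hL p₁ p₂ p₃ r hr hp h
  · intro p₁ p₂ h
    obtain ⟨L, δ, hL, hδ, hh⟩ := face3_threshold (p₁⁻¹).toReal (p₂⁻¹).toReal
      ENNReal.toReal_nonneg ENNReal.toReal_nonneg h
    exact ⟨δ, hδ, fun p₃ r hr hp hs => not_boundedAt_face3 L hL p₁ p₂ p₃ r hr hp (hh _ hs)⟩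
  · intro p₁ p₃ h
    obtain ⟨L, δ, hL, hδ, hh⟩ := face2_threshold (p₁⁻¹).toReal (p₃⁻¹).toReal h
    exact ⟨δ, hδ, fun p₂ r hr hp hs => not_boundedAt_face2 L hL p₁ p₂ p₃ r hr hp (hh _ hs)⟩
  have hr : 0 < r := by linarith
  set u := 1 / r with hu
  have hu3 : u < 3 := by rw [hu, div_lt_iff₀ hr]; linarith
  have hu2 : 2 < u := by rw [hu, lt_div_iff₀ hr]; linarith
  set lo := max (4 - 3 / 2 * u) ((u - 1) / 2) with hlo
  have l1 : 4 - 3 / 2 * u ≤ lo := le_max_left _ _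
  have l2 : (u - 1) / 2 ≤ lo := le_max_right _ _
  have l3 : lo < 1 := max_lt (by linarith) (by linarith)
  set a := (lo + 1) / 2 with ha
  have a1 : lo < a ∧ a < 1 := by constructor <;> linarith
  set b := u - 2 * a with hb
  have b1 : 0 < b ∧ b < 1 := by constructor <;> linarith
  have a0 : 0 < a := by linarith
  have key : ∀ c : ℝ, 0 < c → c < 1 → (1 : ℝ≥0∞) < (ENNReal.ofReal c)⁻¹ := by
    intro c _ hc1
    rw [ENNReal.one_lt_inv, ENNReal.ofReal_lt_one]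
    exact hc1
  refine ⟨(ENNReal.ofReal a)⁻¹, (ENNReal.ofReal a)⁻¹, (ENNReal.ofReal b)⁻¹, key a a0 a1.2,
    key a a0 a1.2, key b b1.1 b1.2, ?_⟩
  have hp : (ENNReal.ofReal r)⁻¹ = ((ENNReal.ofReal a)⁻¹)⁻¹ + ((ENNReal.ofReal a)⁻¹)⁻¹
      + ((ENNReal.ofReal b)⁻¹)⁻¹ := by
    rw [inv_inv, inv_inv, ← ENNReal.ofReal_add a0.le a0.le,
      ← ENNReal.ofReal_add (by linarith) b1.1.le, ← ENNReal.ofReal_inv_of_pos hr, ← one_div, ← hu]
    congr 1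
    linarith
  refine ⟨hp, region hr hp (Or.inr (Or.inl ?_))⟩
  rw [inv_inv, inv_inv, ENNReal.toReal_ofReal a0.le, ENNReal.toReal_ofReal b1.1.le]
  linarith

end Vale.Agent.Results.P141.UnboundedRegion
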